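import Vale.Agent.P049.Final

namespace Vale.Agent.Results.P049.ARamanujan

/-- For every `d ≥ 3` there is a deterministic polynomial time Turing machine (input: `n` in
unary, output: the adjacency matrix row by row) which, for all large `n` with `d * n` even,
outputs a simple `d`-regular graph on `n` vertices all of whose eigenvalues on the orthogonal
complement of the all-ones vector have absolute value at most `2 √(d - 1)`. -/
theorem result (d : ℕ) (hd : 3 ≤ d) :
    ∃ (out : ℕ → List Bool)
      (M : Turing.TM2ComputableInPolyTime (fun n : ℕ => List.replicate n true)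
        (fun w : List Bool => w) out),
      (∀ k, Finite (M.tm.Γ k)) ∧
      ∃ n₀ : ℕ, ∀ n : ℕ, n₀ ≤ n → Even (d * n) →
        ∃ (G : SimpleGraph (Fin n)) (_ : DecidableRel G.Adj),
          G.IsRegularOfDegree d ∧
          out n = (List.finRange n).flatMap
            (fun i => (List.finRange n).map fun j => decide (G.Adj i j)) ∧
          ∀ (μ : ℝ) (x : Fin n → ℝ), x ≠ 0 → ∑ i, x i = 0 →
            (G.adjMatrix ℝ).mulVec x = μ • x → |μ| ≤ 2 * √((d : ℝ) - 1) :=
  Vale.Agent.P049.ramanujan d hd

end Vale.Agent.Results.P049.ARamanujan
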